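import Vale.Agent.P144Z.Ising
import Vale.Agent.P144Z.A1.Main
import Vale.Agent.P144Z.A3.Main
import Vale.Agent.P144Z.A4.Main
import Vale.Agent.P144Z.C.Main
import Vale.Agent.P144Z.E3.Main

/-!
# The norms of the flow: basic properties
-/

namespace Vale.Agent.P144Z.RN

open Finset Matrix

set_option linter.unusedSectionVars false

section hsq

variable {M : ℕ} [NeZero M]

theorem hsq_nonneg (A : Gauge M) (ρ : ℝ) (B : Finset (Tor M)) (u : Tor M × Fin 4 → ℝ) :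
    0 ≤ hsq A ρ B u :=
  sum_nonneg fun k _ => mul_nonneg (by rw [pow_mul']; exact sq_nonneg _) (E3.l2sq_nonneg _ _)

theorem hsq_mono (A : Gauge M) {ρ ρ' : ℝ} (h0 : 0 ≤ ρ) (h : ρ ≤ ρ') {B B' : Finset (Tor M)}
    (hB : B ⊆ B') (u : Tor M × Fin 4 → ℝ) : hsq A ρ B u ≤ hsq A ρ' B' u :=
  sum_le_sum fun _ _ => mul_le_mul (pow_le_pow_left₀ h0 h _) (E3.l2sq_mono hB _)
    (E3.l2sq_nonneg _ _) (pow_nonneg (h0.trans h) _)

theorem l2sq_le_hsq (A : Gauge M) (ρ : ℝ) (B : Finset (Tor M)) (u : Tor M × Fin 4 → ℝ) :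
    l2sq B u ≤ hsq A ρ B u := by
  have h := single_le_sum (s := range 5) (f := fun k => ρ ^ (2 * k) * l2sq B ((Dm A ^ k) *ᵥ u))
    (fun k _ => mul_nonneg (by rw [pow_mul']; exact sq_nonneg _) (E3.l2sq_nonneg _ _))
    (mem_range.2 (by norm_num : 0 < 5))
  simpa [hsq] using h

theorem l2sq_univ (u : Tor M × Fin 4 → ℝ) : l2sq univ u = u ⬝ᵥ u := by
  simp only [l2sq, dotProduct, Fintype.sum_prod_type, sq]

theorem SuppIn.mono {δ : Tor M × Fin 4 → ℝ} {z z' : Tor M} {r r' : ℕ} (h : SuppIn δ z r)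
    (hr : r + tdist z z' ≤ r') : SuppIn δ z' r' := fun s hs => h s <| by
  have := tdist_triangle s.1 z z'
  omega

theorem SuppIn.sub {δ δ' : Tor M × Fin 4 → ℝ} {z : Tor M} {r : ℕ} (h : SuppIn δ z r)
    (h' : SuppIn δ' z r) : SuppIn (δ - δ') z r := fun s hs => by
  rw [Pi.sub_apply, h s hs, h' s hs, sub_zero]

theorem SuppIn.smul {δ : Tor M × Fin 4 → ℝ} {z : Tor M} {r : ℕ} (h : SuppIn δ z r) (c : ℝ) :
    SuppIn (c • δ) z r := fun s hs => by rw [Pi.smul_apply, h s hs, smul_zero]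

theorem SuppIn.sum {ι : Type} (t : Finset ι) {δ : ι → Tor M × Fin 4 → ℝ} {z : Tor M} {r : ℕ}
    (h : ∀ i, SuppIn (δ i) z r) : SuppIn (∑ i ∈ t, δ i) z r := fun s hs => by
  rw [Finset.sum_apply]
  exact sum_eq_zero fun i _ => h i s hs

/-- A function with a bounded norm has a bounded pairing. -/
theorem Dom.abs_le {A : Gauge M} {ℓ : ℕ} (hℓ : 1 ≤ ℓ) {z : Tor M} {δ : Tor M × Fin 4 → ℝ} {c : ℝ}
    (hc : 0 ≤ c) (hd : Dom A ℓ z δ c) {u : Tor M × Fin 4 → ℝ} {b : ℝ} (hb : 0 ≤ b)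
    (hu : hsq A ℓ (ball z (2 * ℓ)) u ≤ b ^ 2 * ℓ) : |δ ⬝ᵥ u| ≤ c * b := by
  have h1 : (0 : ℝ) < ℓ := by exact_mod_cast hℓ
  have h2 : (δ ⬝ᵥ u) ^ 2 * ℓ ≤ (c * b) ^ 2 * ℓ :=
    (hd u).trans ((mul_le_mul_of_nonneg_left hu (sq_nonneg c)).trans_eq (by ring))
  exact abs_le_of_sq_le_sq (le_of_mul_le_mul_right h2 h1) (mul_nonneg hc hb)

/-- Transfer of a dual bound to another scale. -/
theorem Dom.transfer {A : Gauge M} {ℓ ℓ' : ℕ} (hℓ : 1 ≤ ℓ) {z z' : Tor M}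
    {δ δ' : Tor M × Fin 4 → ℝ} {c κ : ℝ} (hd : Dom A ℓ z δ c)
    (h : ∀ u, ∃ u', δ' ⬝ᵥ u = δ ⬝ᵥ u' ∧ hsq A ℓ (ball z (2 * ℓ)) u' * ℓ'
      ≤ κ ^ 2 * ℓ * hsq A ℓ' (ball z' (2 * ℓ')) u) : Dom A ℓ' z' δ' (c * κ) := fun u => by
  obtain ⟨u', e, h1⟩ := h u
  have h0 : (0 : ℝ) < ℓ := by exact_mod_cast hℓ
  refine le_of_mul_le_mul_right ?_ h0
  have h2 := mul_le_mul_of_nonneg_right (hd u') (Nat.cast_nonneg (α := ℝ) ℓ')
  have h3 := mul_le_mul_of_nonneg_left h1 (sq_nonneg c)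
  rw [e]
  nlinarith

theorem dom_single (A : Gauge M) (ℓ : ℕ) (s : Tor M × Fin 4) :
    Dom A ℓ s.1 (Pi.single s 1) √ℓ := fun u => by
  rw [single_one_dotProduct, Real.sq_sqrt (Nat.cast_nonneg ℓ), mul_comm]
  refine mul_le_mul_of_nonneg_left ?_ (Nat.cast_nonneg ℓ)
  refine le_trans ?_ (l2sq_le_hsq A ℓ _ u)
  exact E3.sq_le_l2sq u (E3.mem_ball.2 (by rw [tdist_self]; omega)) s.2

theorem supp_single (s : Tor M × Fin 4) (r : ℕ) : SuppIn (Pi.single s 1) s.1 r := fun t ht => by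
  refine Pi.single_eq_of_ne (fun e => ?_) _
  rw [e, tdist_self] at ht
  omega

end hsq

variable (g : Geo)

/-- The extension by zero as a linear map. -/
def exL : (Tor g.M × Fin 4 → ℝ) →ₗ[ℝ] (g.S → ℝ) where
  toFun := g.ex
  map_add' a b := by funext s; cases s <;> simp [Geo.ex]
  map_smul' c a := by funext s; cases s <;> simp [Geo.ex]

theorem exL_apply (δ : Tor g.M × Fin 4 → ℝ) : exL g δ = g.ex δ := rfl

theorem ex_add (a b : Tor g.M × Fin 4 → ℝ) : g.ex (a + b) = g.ex a + g.ex b := (exL g).map_add a b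

theorem ex_sub (a b : Tor g.M × Fin 4 → ℝ) : g.ex (a - b) = g.ex a - g.ex b := (exL g).map_sub a b

theorem ex_smul (c : ℝ) (a : Tor g.M × Fin 4 → ℝ) : g.ex (c • a) = c • g.ex a :=
  (exL g).map_smul c a

theorem ex_zero : g.ex 0 = 0 := (exL g).map_zero

theorem ex_sum {ι : Type} (t : Finset ι) (a : ι → Tor g.M × Fin 4 → ℝ) :
    g.ex (∑ i ∈ t, a i) = ∑ i ∈ t, g.ex (a i) := map_sum (exL g) a t

theorem ex_dot (a b : Tor g.M × Fin 4 → ℝ) : g.ex a ⬝ᵥ g.ex b = a ⬝ᵥ b := by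
  simp [Geo.ex, dotProduct, Fintype.sum_sum_type]

theorem ex_single (s : Tor g.M × Fin 4) : g.ex (Pi.single s 1) = Pi.single (Sum.inl s) 1 := by
  funext t
  rcases t with t | t
  · by_cases h : t = s
    · subst h; simp [Geo.ex]
    · simp [Geo.ex, h]
  · simp [Geo.ex]

theorem src_dot_ex (k : g.K × Fin 2) (a : Tor g.M × Fin 4 → ℝ) :
    (Pi.single (Sum.inr k) 1 : g.S → ℝ) ⬝ᵥ g.ex a = 0 := by
  rw [single_one_dotProduct]; rfl

theorem ex_dot_src (k : g.K × Fin 2) (a : Tor g.M × Fin 4 → ℝ) :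
    g.ex a ⬝ᵥ (Pi.single (Sum.inr k) 1 : g.S → ℝ) = 0 := by
  rw [dotProduct_comm, src_dot_ex]

/-- The projection on the fields. -/
noncomputable abbrev prF : (g.S → ℝ) →ₗ[ℝ] (g.S → ℝ) := res (Set.range Sum.inl)

/-- The projection on the sources. -/
noncomputable abbrev prB : (g.S → ℝ) →ₗ[ℝ] (g.S → ℝ) := res (Set.range Sum.inr)

theorem res_apply {S : Type} (T : Set S) (δ : S → ℝ) (s : S) :
    res T δ s = open Classical in if s ∈ T then δ s else 0 := rfl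

theorem prF_ex (a : Tor g.M × Fin 4 → ℝ) : prF g (g.ex a) = g.ex a := by
  funext s; cases s <;> simp [res_apply, Geo.ex]

theorem prB_ex (a : Tor g.M × Fin 4 → ℝ) : prB g (g.ex a) = 0 := by
  funext s; cases s <;> simp [res_apply, Geo.ex]

theorem prF_src (k : g.K × Fin 2) : prF g (Pi.single (Sum.inr k) 1) = 0 := by
  funext s; cases s <;> simp [res_apply]

theorem prB_src (k : g.K × Fin 2) :
    prB g (Pi.single (Sum.inr k) 1) = Pi.single (Sum.inr k) 1 := A1.res_single ⟨k, rfl⟩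

theorem prF_add_prB (δ : g.S → ℝ) : prF g δ + prB g δ = δ := by
  funext s; cases s <;> simp [res_apply]

variable {g}

theorem cons_cases {ℓ : ℕ} {h β : ℝ} {X : Finset g.P} {p : (g.S → ℝ) × ℝ}
    (hp : p ∈ g.cons ℓ h β X) :
    (∃ z ∈ X, ∃ δ c, SuppIn δ z ℓ ∧ 0 ≤ c ∧ Dom g.A ℓ z δ c ∧ p = (g.ex δ, h * c)) ∨
      ∃ k i, (g.src k).y ∈ X ∧ p = (Pi.single (Sum.inr (k, i)) 1, √β) := hp

theorem In.fld {r : Rep g.S} {ℓ : ℕ} {h β : ℝ} {X : Finset g.P} (hr : r.In (g.cons ℓ h β X))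
    {z : g.P} (hz : z ∈ X) {δ : Tor g.M × Fin 4 → ℝ} {c : ℝ} (hs : SuppIn δ z ℓ) (hc : 0 ≤ c)
    (hd : Dom g.A ℓ z δ c) : opn (r.Ψ (g.ex δ)) ≤ h * c :=
  hr (g.ex δ, h * c) (Or.inl ⟨z, hz, δ, c, hs, hc, hd, rfl⟩)

theorem In.src {r : Rep g.S} {ℓ : ℕ} {h β : ℝ} {X : Finset g.P} (hr : r.In (g.cons ℓ h β X))
    {k : g.K} (hk : (g.src k).y ∈ X) (i : Fin 2) :
    opn (r.Ψ (Pi.single (Sum.inr (k, i)) 1)) ≤ √β :=
  hr (Pi.single (Sum.inr (k, i)) 1, √β) (Or.inr ⟨k, i, hk, rfl⟩)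

theorem adm {ℓ : ℕ} (hℓ : 1 ≤ ℓ) {h β : ℝ} (hh : 0 < h) (hβ : 0 < β) (X : Finset g.P) :
    Adm (g.cons ℓ h β X) (g.gens X) where
  bdd s hs := by
    rcases s with s | ⟨k, i⟩
    · exact ⟨h * √ℓ, Or.inl ⟨s.1, hs, Pi.single s 1, √ℓ, supp_single s ℓ, Real.sqrt_nonneg _,
        dom_single _ ℓ s, by rw [ex_single]⟩⟩
    · exact ⟨√β, Or.inr ⟨k, i, hs, rfl⟩⟩
  abs := by
    set K : ℝ := 1 + ∑ s : Tor g.M × Fin 4, hsq g.A ℓ univ (Pi.single s 1) with hK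
    have hK0 : 0 ≤ ∑ s : Tor g.M × Fin 4, hsq g.A ℓ univ (Pi.single s 1) :=
      sum_nonneg fun s _ => hsq_nonneg _ _ _ _
    have hK1 : 1 ≤ K := by linarith
    have hl : (1 : ℝ) ≤ ℓ := by exact_mod_cast hℓ
    refine ⟨min (h / K) √β, lt_min (by positivity) (Real.sqrt_pos.2 hβ), fun p hp => ?_⟩
    rcases cons_cases hp with ⟨z, -, δ, c, -, hc, hd, rfl⟩ | ⟨k, i, -, rfl⟩
    · have h1 : ‖g.ex δ‖ ≤ c * K := by
        refine (pi_norm_le_iff_of_nonneg (by positivity)).2 fun s => ?_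
        rcases s with s | s
        · have h2 := Dom.abs_le hℓ hc hd (u := Pi.single s 1) (b := K) (by positivity) (by
            have h3 := hsq_mono g.A (Nat.cast_nonneg ℓ) le_rfl (subset_univ (ball z (2 * ℓ)))
              (Pi.single s 1)
            have h4 := single_le_sum (f := fun s : Tor g.M × Fin 4 =>
              hsq g.A ℓ univ (Pi.single s 1)) (fun s _ => hsq_nonneg _ _ _ _) (mem_univ s)
            nlinarith)
          rwa [dotProduct_single_one] at h2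
        · show ‖(0 : ℝ)‖ ≤ _
          rw [norm_zero]; positivity
      calc min (h / K) √β * ‖g.ex δ‖ ≤ h / K * (c * K) :=
            mul_le_mul (min_le_left _ _) h1 (norm_nonneg _) (by positivity)
        _ = h * c := by field_simp
    · have h1 : ‖(Pi.single (Sum.inr (k, i)) 1 : g.S → ℝ)‖ ≤ 1 := by
        rw [Pi.norm_single, norm_one]
      calc min (h / K) √β * ‖(Pi.single (Sum.inr (k, i)) 1 : g.S → ℝ)‖ ≤ √β * 1 :=
            mul_le_mul (min_le_right _ _) h1 (norm_nonneg _) (Real.sqrt_nonneg _)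
        _ = √β := mul_one _

theorem gens_mono {X Y : Finset g.P} (h : X ⊆ Y) : g.gens X ⊆ g.gens Y := fun _ hs => h hs

theorem mem_sub {X : Finset g.P} {F : g.E} : F ∈ g.sub X ↔ Ev.val F ∈ loc (g.gens X) ∧
    ExteriorAlgebra.map g.flip (Ev.val F) = Ev.val F := Iff.rfl

theorem sub_loc {X : Finset g.P} {F : g.E} (h : F ∈ g.sub X) : Ev.val F ∈ loc (g.gens X) := h.1

theorem sub_flip {X : Finset g.P} {F : g.E} (h : F ∈ g.sub X) :
    ExteriorAlgebra.map g.flip (Ev.val F) = Ev.val F := h.2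

theorem sub_mono {X Y : Finset g.P} (h : X ⊆ Y) : g.sub X ≤ g.sub Y := fun _ hF =>
  mem_sub.2 ⟨A1.loc_mono (gens_mono h) (sub_loc hF), sub_flip hF⟩

section pn

variable {ℓ ℓ' : ℕ} {h h' β β' : ℝ} {X Y : Finset g.P}

theorem pn_nonneg (F : g.E) : 0 ≤ g.pn ℓ h β X F := nrm_nonneg _

theorem le_pn (hℓ : 1 ≤ ℓ) (hh : 0 < h) (hβ : 0 < β) {F : g.E} (hF : F ∈ g.sub X) {r : Rep g.S}
    (hr : r.In (g.cons ℓ h β X)) : opn (r.ev (Ev.val F)) ≤ g.pn ℓ h β X F :=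
  le_nrm (adm hℓ hh hβ X) (sub_loc hF) r hr

theorem pn_le (hℓ : 1 ≤ ℓ) (hh : 0 < h) (hβ : 0 < β) {F : g.E} (hF : F ∈ g.sub X) {c : ℝ}
    (hc : ∀ r : Rep g.S, r.In (g.cons ℓ h β X) → opn (r.ev (Ev.val F)) ≤ c) :
    g.pn ℓ h β X F ≤ c := nrm_le (adm hℓ hh hβ X) (sub_loc hF) hc

theorem pn_add (hℓ : 1 ≤ ℓ) (hh : 0 < h) (hβ : 0 < β) (F G : g.E) :
    g.pn ℓ h β X (F + G) ≤ g.pn ℓ h β X F + g.pn ℓ h β X G := by
  unfold Geo.pn; rw [map_add]; exact nrm_add (adm hℓ hh hβ X) _ _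

theorem pn_smul (hℓ : 1 ≤ ℓ) (hh : 0 < h) (hβ : 0 < β) (c : ℝ) (F : g.E) :
    g.pn ℓ h β X (c • F) = |c| * g.pn ℓ h β X F := by
  unfold Geo.pn; rw [map_smul]; exact nrm_smul (adm hℓ hh hβ X) _ _

theorem pn_mul (hℓ : 1 ≤ ℓ) (hh : 0 < h) (hβ : 0 < β) (F G : g.E) :
    g.pn ℓ h β X (F * G) ≤ g.pn ℓ h β X F * g.pn ℓ h β X G := by
  unfold Geo.pn; rw [map_mul]; exact nrm_mul (adm hℓ hh hβ X) _ _

theorem pn_one (hℓ : 1 ≤ ℓ) (hh : 0 < h) (hβ : 0 < β) : g.pn ℓ h β X 1 ≤ 1 := by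
  unfold Geo.pn; rw [map_one]; exact nrm_one (adm hℓ hh hβ X)

theorem pn_zero (hℓ : 1 ≤ ℓ) (hh : 0 < h) (hβ : 0 < β) : g.pn ℓ h β X 0 = 0 := by
  rw [← zero_smul ℝ (0 : g.E), pn_smul hℓ hh hβ, abs_zero, zero_mul]

theorem pn_neg (hℓ : 1 ≤ ℓ) (hh : 0 < h) (hβ : 0 < β) (F : g.E) :
    g.pn ℓ h β X (-F) = g.pn ℓ h β X F := by
  rw [← neg_one_smul ℝ F, pn_smul hℓ hh hβ, abs_neg, abs_one, one_mul]

theorem pn_sub (hℓ : 1 ≤ ℓ) (hh : 0 < h) (hβ : 0 < β) (F G : g.E) :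
    g.pn ℓ h β X (F - G) ≤ g.pn ℓ h β X F + g.pn ℓ h β X G := by
  rw [sub_eq_add_neg, ← pn_neg hℓ hh hβ G]; exact pn_add hℓ hh hβ _ _

theorem pn_sum (hℓ : 1 ≤ ℓ) (hh : 0 < h) (hβ : 0 < β) {ι : Type} (t : Finset ι) (F : ι → g.E) :
    g.pn ℓ h β X (∑ i ∈ t, F i) ≤ ∑ i ∈ t, g.pn ℓ h β X (F i) := by
  classical
  induction t using Finset.induction_on with
  | empty => rw [sum_empty, sum_empty, pn_zero hℓ hh hβ]
  | insert a t ha ih =>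
    rw [sum_insert ha, sum_insert ha]
    exact (pn_add hℓ hh hβ _ _).trans (add_le_add le_rfl ih)

theorem pn_def (hℓ : 1 ≤ ℓ) (hh : 0 < h) (hβ : 0 < β) {F : g.E} (hF : F ∈ g.sub X)
    (h0 : g.pn ℓ h β X F = 0) : F = 0 :=
  Ev.val_injective ((nrm_def (adm hℓ hh hβ X) (sub_loc hF) h0).trans (map_zero _).symm)

theorem abs_aug_le_pn (hℓ : 1 ≤ ℓ) (hh : 0 < h) (hβ : 0 < β) (F : g.E) :
    |aug (Ev.val F)| ≤ g.pn ℓ h β X F := abs_aug_le (adm hℓ hh hβ X) _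

/-- Comparison of two norms when the fields of the second class lie in the first class. -/
theorem pn_le_pn (hℓ : 1 ≤ ℓ) (hh : 0 < h) (hβ : 0 < β) (hℓ' : 1 ≤ ℓ') (hh' : 0 < h')
    (hβ' : 0 < β') (hXY : X ⊆ Y) {F : g.E} (hF : F ∈ g.sub X)
    (hc : ∀ r : Rep g.S, r.In (g.cons ℓ' h' β' Y) → r.In (g.cons ℓ h β X)) :
    g.pn ℓ' h' β' Y F ≤ g.pn ℓ h β X F :=
  pn_le hℓ' hh' hβ' (sub_mono hXY hF) fun r hr => le_pn hℓ hh hβ hF (hc r hr)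

theorem pn_mono (hℓ : 1 ≤ ℓ) (hh' : 0 < h') (hβ' : 0 < β') (hhh : h' ≤ h) (hββ : β' ≤ β)
    (hXY : X ⊆ Y) {F : g.E} (hF : F ∈ g.sub X) : g.pn ℓ h' β' Y F ≤ g.pn ℓ h β X F :=
  pn_le_pn hℓ (hh'.trans_le hhh) (hβ'.trans_le hββ) hℓ hh' hβ' hXY hF fun r hr p hp => by
    rcases cons_cases hp with ⟨z, hz, δ, c, hs, hc, hd, rfl⟩ | ⟨k, i, hk, rfl⟩
    · exact (In.fld hr (hXY hz) hs hc hd).trans (mul_le_mul_of_nonneg_right hhh hc)
    · exact (In.src hr (hXY hk) i).trans (Real.sqrt_le_sqrt hββ)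

/-- The norms form a local system. -/
noncomputable def locSys (g : Geo) {ℓ : ℕ} {h β : ℝ} (hℓ : 1 ≤ ℓ) (hh : 0 < h) (hβ : 0 < β) :
    LocSys g.P g.E where
  sub := g.sub
  p := g.pn ℓ h β
  mono := sub_mono
  p_nonneg _ := pn_nonneg
  p_add _ := pn_add hℓ hh hβ
  p_smul _ := pn_smul hℓ hh hβ
  p_mul _ := pn_mul hℓ hh hβ
  p_one _ := pn_one hℓ hh hβ
  p_mono hXY hF := pn_mono hℓ hh hβ le_rfl le_rfl hXY hF
  p_def := pn_def hℓ hh hβ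

/-- A substitution that preserves the class of fields does not increase the norm. -/
theorem pn_evMap (hℓ : 1 ≤ ℓ) (hh : 0 < h) (hβ : 0 < β) (hℓ' : 1 ≤ ℓ') (hh' : 0 < h')
    (hβ' : 0 < β') (f : (g.S → ℝ) →ₗ[ℝ] (g.S → ℝ)) {F : g.E} (hF : F ∈ g.sub X)
    (hF' : evMap f F ∈ g.sub Y)
    (hc : ∀ r : Rep g.S, r.In (g.cons ℓ' h' β' Y) → ∀ p ∈ g.cons ℓ h β X,
      opn (r.Ψ (f p.1)) ≤ p.2) : g.pn ℓ' h' β' Y (evMap f F) ≤ g.pn ℓ h β X F := by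
  have h1 := sub_loc hF'
  unfold Geo.pn
  rw [val_evMap] at h1 ⊢
  exact nrm_map (adm hℓ hh hβ X) (adm hℓ' hh' hβ' Y) f hc (sub_loc hF) h1

end pn

theorem map_map {S : Type} (f f' : (S → ℝ) →ₗ[ℝ] (S → ℝ)) (F : Gr S) :
    ExteriorAlgebra.map f (ExteriorAlgebra.map f' F) = ExteriorAlgebra.map (f ∘ₗ f') F := by
  rw [← ExteriorAlgebra.map_comp_map]; rfl

theorem flip_apply (δ : g.S → ℝ) (s : g.S) :
    g.flip δ s = Sum.elim (fun _ => -δ s) (fun _ => δ s) s := by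
  cases s <;> simp [Geo.flip, res_apply]

theorem flip_ex (δ : Tor g.M × Fin 4 → ℝ) : g.flip (g.ex δ) = -g.ex δ := by
  funext s; rw [flip_apply]; cases s <;> simp [Geo.ex]

theorem flip_src (k : g.K × Fin 2) :
    g.flip (Pi.single (Sum.inr k) 1) = Pi.single (Sum.inr k) 1 := by
  funext s; rw [flip_apply]; cases s <;> simp

/-- Restrictions preserve the local algebras. -/
theorem evRes_mem (T : Set g.S) {X : Finset g.P} {F : g.E} (hF : F ∈ g.sub X) :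
    evMap (res T) F ∈ g.sub X := by
  refine mem_sub.2 ⟨?_, ?_⟩
  · rw [val_evMap]
    refine map_loc (sub_loc hF) fun s hs s' hs' => ?_
    rw [res_apply]
    split_ifs
    · exact Pi.single_eq_of_ne (fun e : s' = s => hs' (e ▸ hs)) _
    · rfl
  · rw [val_evMap, map_map]
    have e : g.flip ∘ₗ res T = res T ∘ₗ g.flip := by
      refine LinearMap.ext fun δ => funext fun s => ?_
      rw [LinearMap.comp_apply, LinearMap.comp_apply, flip_apply, res_apply, res_apply, flip_apply]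
      by_cases h : s ∈ T <;> cases s <;> simp [h]
    rw [e, ← map_map, sub_flip hF]

theorem noF_mem {X : Finset g.P} {F : g.E} (hF : F ∈ g.sub X) : g.noF F ∈ g.sub X :=
  evRes_mem _ hF

theorem noB_mem {X : Finset g.P} {F : g.E} (hF : F ∈ g.sub X) : g.noB F ∈ g.sub X :=
  evRes_mem _ hF

theorem opn_Psi_zero {S : Type} (r : Rep S) : opn (r.Ψ 0) = 0 := by
  rw [map_zero]; simp [opn]

section pn2

variable {ℓ : ℕ} {h β β' : ℝ} {X : Finset g.P}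

theorem pn_noF (hℓ : 1 ≤ ℓ) (hh : 0 < h) (hβ : 0 < β) {F : g.E} (hF : F ∈ g.sub X) :
    g.pn ℓ h β X (g.noF F) ≤ g.pn ℓ h β X F :=
  pn_evMap hℓ hh hβ hℓ hh hβ _ hF (noF_mem hF) fun r hr p hp => by
    rcases cons_cases hp with ⟨z, hz, δ, c, hs, hc, hd, rfl⟩ | ⟨k, i, hk, rfl⟩
    · show opn (r.Ψ (prB g (g.ex δ))) ≤ h * c
      rw [prB_ex, opn_Psi_zero]; positivity
    · show opn (r.Ψ (prB g (Pi.single (Sum.inr (k, i)) 1))) ≤ √β
      rw [prB_src]; exact In.src hr hk i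

/-- The part without sources does not see the weight of the sources. -/
theorem pn_noB (hℓ : 1 ≤ ℓ) (hh : 0 < h) (hβ : 0 < β) (hβ' : 0 < β') {F : g.E}
    (hF : F ∈ g.sub X) : g.pn ℓ h β' X (g.noB F) ≤ g.pn ℓ h β X F :=
  pn_evMap hℓ hh hβ hℓ hh hβ' _ hF (noB_mem hF) fun r hr p hp => by
    rcases cons_cases hp with ⟨z, hz, δ, c, hs, hc, hd, rfl⟩ | ⟨k, i, hk, rfl⟩
    · show opn (r.Ψ (prF g (g.ex δ))) ≤ h * c
      rw [prF_ex]; exact In.fld hr hz hs hc hd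
    · show opn (r.Ψ (prF g (Pi.single (Sum.inr (k, i)) 1))) ≤ √β
      rw [prF_src, opn_Psi_zero]; exact Real.sqrt_nonneg _

end pn2

end Vale.Agent.P144Z.RN
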