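import Vale.Agent.P144Z.RN.Basic
import Vale.Agent.P144Z.A5.Main
import Vale.Agent.P144Z.E4.Main

/-!
# Change of scale in the norms of the flow
-/

namespace Vale.Agent.P144Z.RN

open Finset Matrix

set_option linter.unusedSectionVars false

section shr

variable {M : ℕ} [NeZero M]

/-- The fields at scale `ℓ'` around `z` have relative size `κ` at scale `ℓ`. -/
def Shr (A : Gauge M) (ℓ ℓ' : ℕ) (z : Tor M) (κ : ℝ) : Prop :=
  ∀ u, hsq A ℓ (ball z (2 * ℓ)) u * ℓ' ≤ κ ^ 2 * ℓ * hsq A ℓ' (ball z (2 * ℓ')) u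

theorem shr_of {A : Gauge M} {ℓ ℓ' : ℕ} {z : Tor M} {κ b : ℝ}
    (h : ∀ u, hsq A ℓ (ball z (2 * ℓ)) u ≤ b * hsq A ℓ' (ball z (2 * ℓ')) u)
    (hb : b * ℓ' ≤ κ ^ 2 * ℓ) : Shr A ℓ ℓ' z κ := fun u => by
  have h1 := mul_le_mul_of_nonneg_right (h u) (Nat.cast_nonneg (α := ℝ) ℓ')
  have h2 := mul_le_mul_of_nonneg_right hb (hsq_nonneg A ℓ' (ball z (2 * ℓ')) u)
  nlinarith

theorem shr_triv (A : Gauge M) {ℓ ℓ' : ℕ} (h : ℓ ≤ ℓ') (z : Tor M) {κ : ℝ}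
    (hκ : (ℓ' : ℝ) ≤ κ ^ 2 * ℓ) : Shr A ℓ ℓ' z κ :=
  shr_of (b := 1) (fun u => by
    rw [one_mul]
    exact hsq_mono A (Nat.cast_nonneg ℓ) (by exact_mod_cast h) (E3.ball_mono z (by omega)) u)
    (by rwa [one_mul])

theorem sq_ratio {C κ : ℝ} {ℓ ℓ' : ℕ} (hℓ : 1 ≤ ℓ') (hκ : C * ℓ ≤ κ ^ 2 * ℓ') :
    C * ((ℓ : ℝ) / ℓ') ^ 2 * ℓ' ≤ κ ^ 2 * ℓ := by
  have h0 : (0 : ℝ) < ℓ' := by exact_mod_cast hℓ
  have e : C * ((ℓ : ℝ) / ℓ') ^ 2 * ℓ' = C * ℓ / ℓ' * ℓ := by field_simp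
  rw [e]
  exact mul_le_mul_of_nonneg_right ((div_le_iff₀ h0).2 hκ) (Nat.cast_nonneg ℓ)

theorem shr_flat : ∃ C : ℝ, 1 ≤ C ∧ ∀ (M : ℕ) [NeZero M] (A : Gauge M), IsSign A →
    ∀ (z : Tor M) (ℓ ℓ' : ℕ), 1 ≤ ℓ → 2 * ℓ ≤ ℓ' → 2 * ℓ' + 11 ≤ M → Flat A z ℓ' →
    ∀ κ : ℝ, C * ℓ ≤ κ ^ 2 * ℓ' → Shr A ℓ ℓ' z κ := by
  obtain ⟨C, hC, h1⟩ := bulk_est
  refine ⟨C, hC, fun M _ A hA z ℓ ℓ' hℓ hl hM hF κ hκ => ?_⟩
  refine shr_of (fun u => (h1 M A hA z ℓ ℓ' hℓ hl hM hF u).trans ?_) (sq_ratio (by omega) hκ)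
  exact mul_le_mul_of_nonneg_left (hsq_mono A (Nat.cast_nonneg _) le_rfl
    (E3.ball_mono z (by omega)) u) (by positivity)

theorem Dom.shr {A : Gauge M} {ℓ ℓ' : ℕ} (hℓ : 1 ≤ ℓ) {z : Tor M} {κ : ℝ} (h : Shr A ℓ ℓ' z κ)
    {δ : Tor M × Fin 4 → ℝ} {c : ℝ} (hd : Dom A ℓ z δ c) : Dom A ℓ' z δ (c * κ) :=
  Dom.transfer hℓ hd fun u => ⟨u, rfl, h u⟩

theorem dot_eq_zero {δ u : Tor M × Fin 4 → ℝ} {z f : Tor M} {r r' : ℕ} (hδ : SuppIn δ z r)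
    (hu : SuppIn u f r') (h : r + r' < tdist z f) : δ ⬝ᵥ u = 0 :=
  sum_eq_zero fun s _ => by
    by_cases h1 : r < tdist s.1 z
    · rw [hδ s h1, zero_mul]
    · have := tdist_triangle z s.1 f
      rw [tdist_comm z s.1] at this
      rw [hu s (by omega), mul_zero]

theorem supp_cnr (f : Tor M) : SuppIn (cnr f) f 0 := fun s hs => by
  refine if_neg fun e => ?_
  rw [e, tdist_self] at hs
  omega

end shr

variable {g : Geo} {ℓ ℓ' : ℕ} {h h' β β' : ℝ} {X Y : Finset g.P}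

theorem In.shr {r : Rep g.S} (hℓ : 1 ≤ ℓ) (hl : ℓ ≤ ℓ') (hr : r.In (g.cons ℓ' h' β' Y))
    {z : g.P} (hz : z ∈ Y) {κ : ℝ} (hκ : 0 ≤ κ) (hs : Shr g.A ℓ ℓ' z κ)
    {δ : Tor g.M × Fin 4 → ℝ} {c : ℝ} (h1 : SuppIn δ z ℓ) (hc : 0 ≤ c) (hd : Dom g.A ℓ z δ c) :
    opn (r.Ψ (g.ex δ)) ≤ h' * κ * c :=
  (In.fld hr hz (SuppIn.mono h1 (by rw [tdist_self]; omega)) (mul_nonneg hc hκ)
    (Dom.shr hℓ hs hd)).trans_eq (by ring)

/-- Change of scale without loss. -/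
theorem pn_shr (hℓ : 1 ≤ ℓ) (hl : ℓ ≤ ℓ') (hh : 0 < h) (hh' : 0 < h') (hβ' : 0 < β')
    (hββ : β' ≤ β) (hXY : X ⊆ Y) {κ : ℝ} (hκ : 0 ≤ κ) (hs : ∀ z ∈ X, Shr g.A ℓ ℓ' z κ)
    (hk : h' * κ ≤ h) {F : g.E} (hF : F ∈ g.sub X) : g.pn ℓ' h' β' Y F ≤ g.pn ℓ h β X F :=
  pn_le_pn hℓ hh (hβ'.trans_le hββ) (hℓ.trans hl) hh' hβ' hXY hF fun r hr p hp => by
    rcases cons_cases hp with ⟨z, hz, δ, c, h1, hc, hd, rfl⟩ | ⟨k, i, hy, rfl⟩
    · exact (In.shr hℓ hl hr (hXY hz) hκ (hs z hz) h1 hc hd).trans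
        (mul_le_mul_of_nonneg_right hk hc)
    · exact (In.src hr (hXY hy) i).trans (Real.sqrt_le_sqrt hββ)

theorem map_prB {F : g.E} (h0 : g.noF F = 0) : ExteriorAlgebra.map (prB g) (Ev.val F) = 0 := by
  rw [← val_evMap]
  exact (congrArg Ev.val h0).trans (map_zero _)

theorem flip_eq : prB g + prB g - LinearMap.id = g.flip := by
  refine LinearMap.ext fun δ => ?_
  have := prF_add_prB g δ
  show prB g δ + prB g δ - δ = prB g δ - prF g δ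
  nth_rewrite 3 [← this]
  abel

/-- Change of scale with a gain, when all fields are small. -/
theorem pn_small (hℓ : 1 ≤ ℓ) (hl : ℓ ≤ ℓ') (hh : 0 < h) (hh' : 0 < h') (hβ' : 0 < β')
    (hββ : β' ≤ β) (hXY : X ⊆ Y) {κ ρ : ℝ} (hκ : 0 ≤ κ) (hs : ∀ z ∈ X, Shr g.A ℓ ℓ' z κ)
    (hρ : 0 < ρ) (hρ1 : ρ ≤ 1 / 2) (hk : h' * κ ≤ ρ * h) {F : g.E} (hF : F ∈ g.sub X)
    (h0 : g.noF F = 0) : g.pn ℓ' h' β' Y F ≤ 2 * ρ ^ 2 * g.pn ℓ h β X F :=
  pn_le (hℓ.trans hl) hh' hβ' (sub_mono hXY hF) fun r hr => by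
    refine opn_small (adm hℓ hh (hβ'.trans_le hββ) X) (prB g) (sub_loc hF) (map_prB h0)
      (by rw [flip_eq]; exact sub_flip hF) r hρ hρ1 fun p hp => ?_
    rcases cons_cases hp with ⟨z, hz, δ, c, h1, hc, hd, rfl⟩ | ⟨k, i, hy, rfl⟩
    · show opn (r.Ψ (prB g (g.ex δ))) + opn (r.Ψ (g.ex δ - prB g (g.ex δ))) / ρ ≤ h * c
      rw [prB_ex, opn_Psi_zero, sub_zero, zero_add, div_le_iff₀ hρ]
      exact (In.shr hℓ hl hr (hXY hz) hκ (hs z hz) h1 hc hd).trans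
        ((mul_le_mul_of_nonneg_right hk hc).trans_eq (by ring))
    · show opn (r.Ψ (prB g (Pi.single (Sum.inr (k, i)) 1))) + opn (r.Ψ (Pi.single
        (Sum.inr (k, i)) 1 - prB g (Pi.single (Sum.inr (k, i)) 1))) / ρ ≤ √β
      rw [prB_src, sub_self, opn_Psi_zero, zero_div, add_zero]
      exact (In.src hr (hXY hy) i).trans (Real.sqrt_le_sqrt hββ)

open Classical in
/-- Change of the weight of the sources. -/
theorem pn_beta (hℓ : 1 ≤ ℓ) (hh : 0 < h) (hβ : 0 < β) (hβ' : 0 < β') {Λ : ℝ} (hΛ : 1 ≤ Λ)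
    (hb : β' ≤ Λ ^ 2 * β) {F : g.E} (hF : F ∈ g.sub X) : g.pn ℓ h β' X F ≤
      (2 * Λ) ^ (2 * (univ.filter fun k => (g.src k).y ∈ X).card) * g.pn ℓ h β X F :=
  pn_le hℓ hh hβ' hF fun r hr => by
    have key := opn_affine (adm hℓ hh hβ X) (ι := {k // (g.src k).y ∈ X} × Fin 2)
      (fun i => Pi.single (Sum.inr (i.1.1, i.2)) 1) (fun i => Pi.single (Sum.inr (i.1.1, i.2)) 1)
      (sub_loc hF) r hΛ fun p hp => by
        rcases cons_cases hp with ⟨z, hz, δ, c, h1, hc, hd, rfl⟩ | ⟨k, i, hy, rfl⟩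
        · simp only [ex_dot_src, zero_smul, sum_const_zero, sub_zero, abs_zero, zero_mul,
            zero_div, add_zero]
          exact In.fld hr hz h1 hc hd
        · have e : ∀ j : {k // (g.src k).y ∈ X} × Fin 2, j ≠ (⟨k, hy⟩, i) →
              (Pi.single (Sum.inr (k, i)) 1 : g.S → ℝ) ⬝ᵥ Pi.single (Sum.inr (j.1.1, j.2)) 1
                = 0 := fun j hj => by
            rw [single_one_dotProduct]
            refine Pi.single_eq_of_ne (fun e => hj ?_) _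
            have e1 := Sum.inr_injective e
            exact Prod.ext (Subtype.ext (congrArg Prod.fst e1).symm) (congrArg Prod.snd e1).symm
          have e1 : (Pi.single (Sum.inr (k, i)) 1 : g.S → ℝ) ⬝ᵥ Pi.single (Sum.inr (k, i)) 1
              = 1 := by rw [single_one_dotProduct, Pi.single_eq_same]
          dsimp only
          rw [sum_eq_single (⟨k, hy⟩, i) (fun j _ hj => by rw [e j hj, zero_smul])
            (fun h => (h (mem_univ _)).elim), sum_eq_single (⟨k, hy⟩, i)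
            (fun j _ hj => by rw [e j hj, abs_zero, zero_mul, zero_div])
            (fun h => (h (mem_univ _)).elim), e1, one_smul, sub_self, opn_Psi_zero, zero_add,
            abs_one, one_mul, div_le_iff₀ (by linarith)]
          refine (In.src hr hy i).trans (Real.sqrt_le_iff.2 ⟨by positivity, ?_⟩)
          rw [mul_pow, Real.sq_sqrt hβ.le, mul_comm]
          exact hb
    rwa [Fintype.card_prod, Fintype.card_fin, Fintype.card_subtype, mul_comm _ 2] at key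

/-- The singular mode at a flux, in the form used for the norms. -/
structure Sing {M : ℕ} [NeZero M] (A : Gauge M) (ℓ ℓ' : ℕ) (f : Tor M) (u : Tor M × Fin 4 → ℝ)
    (b κ : ℝ) : Prop where
  supp : SuppIn u f (ℓ' / 4)
  size : ∀ z, hsq A ℓ (ball z (2 * ℓ)) u ≤ b ^ 2 * ℓ
  dom : ∀ z, tdist z f ≤ ℓ' → Dom A ℓ' z (cnr f) b
  reg : ∀ z, tdist z f ≤ ℓ' → ∀ w, hsq A ℓ (ball z (2 * ℓ)) (w - (cnr f ⬝ᵥ w) • u) * ℓ'
    ≤ κ ^ 2 * ℓ * hsq A ℓ' (ball z (2 * ℓ')) w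

theorem exists_sing : ∃ b : ℝ, 1 ≤ b ∧ ∀ (M : ℕ) [NeZero M] (A : Gauge M), IsSign A →
    ∀ (f : Tor M) (ℓ ℓ' : ℕ), 1 ≤ ℓ → ℓ ≤ ℓ' → 256 ≤ ℓ' → 8 * ℓ' ≤ M → flux A f = -1 →
    (∀ f', f' ≠ f → tdist f' f ≤ 3 * ℓ' → flux A f' = 1) →
    ∀ κ : ℝ, b ^ 2 * ℓ ≤ κ ^ 2 * ℓ' → ∃ u, Sing A ℓ ℓ' f u b κ := by
  obtain ⟨C, hC, h1⟩ := flux_est
  refine ⟨√C, Real.one_le_sqrt.2 hC, fun M _ A hA f ℓ ℓ' hℓ hl h2 hM hf hs κ hκ => ?_⟩
  have e : √C ^ 2 = C := Real.sq_sqrt (by linarith)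
  obtain ⟨u, u1, u2, u3⟩ := h1 M A hA f ℓ' h2 hM hf hs
  refine ⟨u, u1, fun z => by rw [e]; exact u2 z ℓ hℓ hl, fun z hz w => by
    rw [e]; exact (u3 z hz w).1, fun z hz w => ?_⟩
  rw [e] at hκ
  have h3 := mul_le_mul_of_nonneg_right ((u3 z hz w).2 ℓ hℓ hl) (Nat.cast_nonneg (α := ℝ) ℓ')
  have h4 := mul_le_mul_of_nonneg_right (sq_ratio (ℓ' := ℓ') (by omega) hκ)
    (hsq_nonneg A ℓ' (ball z (2 * ℓ')) w)
  nlinarith

/-- The two bounds at a point near the flux. -/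
theorem Sing.bound {r : Rep g.S} (hℓ : 1 ≤ ℓ) (hl : ℓ ≤ ℓ') (hh' : 0 < h')
    (hr : r.In (g.cons ℓ' h' β' Y)) {f : g.P} {u : Tor g.M × Fin 4 → ℝ} {b κ : ℝ} (hb : 0 ≤ b)
    (hκ : 0 ≤ κ) (hu : Sing g.A ℓ ℓ' f u b κ) {z : g.P} (hz : z ∈ Y) (hzf : tdist z f ≤ ℓ')
    {δ : Tor g.M × Fin 4 → ℝ} {c : ℝ} (h1 : SuppIn δ z ℓ) (hc : 0 ≤ c) (hd : Dom g.A ℓ z δ c) :
    opn (r.Ψ (g.ex δ - (δ ⬝ᵥ u) • g.ex (cnr f))) ≤ h' * κ * c ∧
      |δ ⬝ᵥ u| * opn (r.Ψ (g.ex (cnr f))) ≤ h' * b ^ 2 * c := by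
  have s1 : SuppIn (cnr f) z ℓ' := SuppIn.mono (supp_cnr f) (by rwa [zero_add, tdist_comm])
  constructor
  · rw [← ex_smul, ← ex_sub]
    refine (In.fld hr hz (SuppIn.sub (SuppIn.mono h1 (by rw [tdist_self]; omega))
      (SuppIn.smul s1 _)) (mul_nonneg hc hκ) (Dom.transfer hℓ hd fun w =>
        ⟨w - (cnr f ⬝ᵥ w) • u, ?_, hu.reg z hzf w⟩)).trans_eq (by ring)
    rw [sub_dotProduct, smul_dotProduct, dotProduct_sub, dotProduct_smul, smul_eq_mul,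
      smul_eq_mul, mul_comm]
  · have h2 := Dom.abs_le hℓ hc hd hb (hu.size z)
    have h3 := In.fld hr hz s1 hb (hu.dom z hzf)
    exact (mul_le_mul h2 h3 (A3.opn_nonneg _) (mul_nonneg hc hb)).trans_eq (by ring)

theorem flux_ne {M : ℕ} {A : Gauge M} (hA : IsSign A) {f : Tor M} (h : flux A f ≠ -1) :
    flux A f = 1 := by
  unfold flux at h ⊢
  rcases hA (f, 0) with h1 | h1 <;> rcases hA (f + uv M 0, 1) with h2 | h2 <;>
    rcases hA (f + uv M 1, 0) with h3 | h3 <;> rcases hA (f, 1) with h4 | h4 <;>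
    rw [h1, h2, h3, h4] at h ⊢ <;> first | (norm_num; done) | (norm_num at h)

open Classical in
/-- Change of scale near separated fluxes, with a loss for each flux. -/
theorem pn_flux : ∃ C : ℝ, 1 ≤ C ∧ ∀ (g : Geo), IsSign g.A → ∀ (ℓ ℓ' : ℕ), 1 ≤ ℓ → 2 * ℓ ≤ ℓ' →
    256 ≤ ℓ' → 8 * ℓ' ≤ g.M →
    (∀ f f', flux g.A f = -1 → flux g.A f' = -1 → f ≠ f' → 3 * ℓ' < tdist f f') →
    ∀ (h h' β Λ : ℝ), 0 < h → 0 < h' → 0 < β → 1 ≤ Λ → C * h' ^ 2 * ℓ ≤ h ^ 2 * ℓ' →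
    C * h' ≤ Λ * h → ∀ (X : Finset g.P) (F : g.E), F ∈ g.sub X → g.pn ℓ' h' β X F ≤
      (2 * Λ) ^ (univ.filter fun f => flux g.A f = -1 ∧ ∃ z ∈ X, tdist z f ≤ ℓ').card *
        g.pn ℓ h β X F := by
  obtain ⟨b, hb, h1⟩ := exists_sing
  obtain ⟨C, hC, h2⟩ := shr_flat
  refine ⟨4 * (b ^ 2 + C), by nlinarith, fun g hA ℓ ℓ' hℓ hl h256 hM hsep h h' β Λ hh hh' hβ hΛ
    hk1 hk2 X F hF => pn_le (by omega) hh' hβ hF fun r hr => ?_⟩
  set κ := h / (2 * h') with hκ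
  have hκ0 : 0 ≤ κ := by positivity
  have hκ1 : h' * κ = h / 2 := by rw [hκ]; field_simp
  have hκ2 : (b ^ 2 + C) * ℓ ≤ κ ^ 2 * ℓ' := by
    rw [hκ, div_pow, div_mul_eq_mul_div, le_div_iff₀ (by positivity)]
    nlinarith
  have hl0 : (0 : ℝ) ≤ ℓ := Nat.cast_nonneg ℓ
  have hex : ∀ f : {f // flux g.A f = -1 ∧ ∃ z ∈ X, tdist z f ≤ ℓ'},
      ∃ u, Sing g.A ℓ ℓ' f.1 u b κ := fun f =>
    h1 g.M g.A hA f.1 ℓ ℓ' hℓ (by omega) h256 hM f.2.1 (fun f' hne hd => flux_ne hA fun h3 =>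
      absurd (hsep f' f.1 h3 f.2.1 hne) (not_lt.2 hd)) κ (by nlinarith)
  choose u hu using hex
  have key := opn_affine (adm hℓ hh hβ X) (fun f => g.ex (u f)) (fun f => g.ex (cnr f.1))
    (sub_loc hF) r hΛ fun p hp => by
      rcases cons_cases hp with ⟨z, hz, δ, c, s1, hc, hd, rfl⟩ | ⟨k, i, hy, rfl⟩
      · have hz0 : ∀ f, ℓ' < tdist z f.1 → g.ex δ ⬝ᵥ g.ex (u f) = 0 := fun f hf => by
          rw [ex_dot]; exact dot_eq_zero s1 (hu f).supp (by omega)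
        dsimp only
        by_cases hn : ∃ f, flux g.A f = -1 ∧ tdist z f ≤ ℓ'
        · obtain ⟨f, hf, hzf⟩ := hn
          have hz1 : ∀ f', f' ≠ ⟨f, hf, z, hz, hzf⟩ → g.ex δ ⬝ᵥ g.ex (u f') = 0 := fun f' hne => by
            refine hz0 f' ?_
            have h3 := hsep f'.1 f f'.2.1 hf fun e => hne (Subtype.ext e)
            have h4 := tdist_triangle f'.1 z f
            rw [tdist_comm f'.1 z] at h4
            omega
          rw [sum_eq_single ⟨f, hf, z, hz, hzf⟩ (fun j _ hj => by rw [hz1 j hj, zero_smul])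
            (fun h => (h (mem_univ _)).elim), sum_eq_single ⟨f, hf, z, hz, hzf⟩
            (fun j _ hj => by rw [hz1 j hj, abs_zero, zero_mul, zero_div])
            (fun h => (h (mem_univ _)).elim), ex_dot]
          obtain ⟨b1, b2⟩ := Sing.bound hℓ (by omega) hh' hr (by linarith) hκ0
            (hu ⟨f, hf, z, hz, hzf⟩) hz hzf s1 hc hd
          have b3 : |δ ⬝ᵥ u ⟨f, hf, z, hz, hzf⟩| * opn (r.Ψ (g.ex (cnr f))) / Λ ≤ h / 2 * c := by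
            rw [div_le_iff₀ (by linarith)]
            refine b2.trans ?_
            have : h' * b ^ 2 ≤ h / 2 * Λ := by nlinarith
            nlinarith
          rw [hκ1] at b1
          linarith
        · have hz1 : ∀ f', g.ex δ ⬝ᵥ g.ex (u f') = 0 := fun f' =>
            hz0 f' (not_le.1 fun h3 => hn ⟨f'.1, f'.2.1, h3⟩)
          simp only [hz1, zero_smul, sum_const_zero, sub_zero, abs_zero, zero_mul, zero_div,
            add_zero]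
          have h3 := In.shr hℓ (by omega) hr hz hκ0 (h2 g.M g.A hA z ℓ ℓ' hℓ hl (by omega)
            (fun f hf => flux_ne hA fun h4 => hn ⟨f, h4, by rwa [tdist_comm]⟩) κ (by nlinarith))
            s1 hc hd
          rw [hκ1] at h3
          nlinarith
      · simp only [src_dot_ex, zero_smul, sum_const_zero, sub_zero, abs_zero, zero_mul, zero_div,
          add_zero]
        exact In.src hr hy i
  rwa [Fintype.card_subtype] at key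

theorem map_rank_one_eq_zero {F : g.E} (hF : F ∈ g.sub X) (h0 : g.noF F = 0)
    (u d : Tor g.M × Fin 4 → ℝ) :
    ExteriorAlgebra.map (prB g + (pair (g.ex u)).smulRight (g.ex d)) (Ev.val F) = 0 := by
  have h1 := A5.map_rank_one (prB g) (g.ex u) (g.ex d) 1 (Ev.val F)
  have h2 : ExteriorAlgebra.map (prB g) (del (g.ex u) (Ev.val F)) = 0 := by
    have e1 : del (g.ex u) (Ev.val F)
        = -ExteriorAlgebra.map g.flip (del (g.ex u) (Ev.val F)) := by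
      have := del_map g.flip (g.ex u) (-g.ex u) (sub_loc hF) fun s _ => by
        rcases s with s | s
        · rw [← ex_single, flip_ex, neg_dotProduct_neg, ex_single, single_one_dotProduct]
        · rw [flip_src, dotProduct_neg, src_dot_ex, neg_zero]; rfl
      rw [sub_flip hF, A1.del_neg_left] at this
      rw [← this, neg_neg]
    have e2 : prB g ∘ₗ g.flip = prB g := by
      refine LinearMap.ext fun δ => funext fun s => ?_
      rw [LinearMap.comp_apply, res_apply, res_apply, flip_apply]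
      cases s <;> simp
    have e3 := congrArg (ExteriorAlgebra.map (prB g)) e1
    rw [map_neg, map_map, e2] at e3
    have e4 : (2 : ℝ) • ExteriorAlgebra.map (prB g) (del (g.ex u) (Ev.val F)) = 0 := by
      rw [two_smul]; nth_rewrite 1 [e3]; exact neg_add_cancel _
    exact (smul_eq_zero.1 e4).resolve_left two_ne_zero
  rw [map_prB h0, h2] at h1
  simpa using h1

/-- Change of scale with a gain for a set near one flux. -/
theorem pn_flux_small : ∃ C : ℝ, 1 ≤ C ∧ ∀ (g : Geo), IsSign g.A → ∀ (ℓ ℓ' : ℕ), 1 ≤ ℓ →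
    ℓ ≤ ℓ' → 256 ≤ ℓ' → 8 * ℓ' ≤ g.M → ∀ f, flux g.A f = -1 →
    (∀ f', f' ≠ f → tdist f' f ≤ 3 * ℓ' → flux g.A f' = 1) →
    ∀ (h h' β Λ ρ : ℝ), 0 < h → 0 < h' → 0 < β → 1 ≤ Λ → 0 < ρ → ρ ≤ 1 / 2 →
    C * h' ^ 2 * ℓ ≤ ρ ^ 2 * h ^ 2 * ℓ' → C * h' ≤ Λ * h → ∀ (X : Finset g.P),
    (∀ z ∈ X, tdist z f ≤ ℓ') → ∀ F ∈ g.sub X, g.noF F = 0 →
    g.pn ℓ' h' β X F ≤ 4 * Λ * ρ * g.pn ℓ h β X F := by
  obtain ⟨b, hb, h1⟩ := exists_sing
  refine ⟨4 * b ^ 2, by nlinarith, fun g hA ℓ ℓ' hℓ hl h256 hM f hf hsep h h' β Λ ρ hh hh' hβ hΛ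
    hρ hρ1 hk1 hk2 X hX F hF h0 => pn_le (by omega) hh' hβ hF fun r hr => ?_⟩
  set κ := ρ * h / (2 * h') with hκ
  have hκ0 : 0 ≤ κ := by positivity
  have hκ1 : h' * κ = ρ * h / 2 := by rw [hκ]; field_simp
  obtain ⟨u, hu⟩ := h1 g.M g.A hA f ℓ ℓ' hℓ hl h256 hM hf hsep κ (by
    rw [hκ, div_pow, div_mul_eq_mul_div, le_div_iff₀ (by positivity)]
    nlinarith)
  refine opn_affine_small (adm hℓ hh hβ X) (g.ex u) (g.ex (cnr f)) (prB g) (sub_loc hF)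
    (map_prB h0) (map_rank_one_eq_zero hF h0 _ _) r hΛ hρ hρ1 fun p hp => ?_
  rcases cons_cases hp with ⟨z, hz, δ, c, s1, hc, hd, rfl⟩ | ⟨k, i, hy, rfl⟩
  · dsimp only
    rw [prB_ex, opn_Psi_zero, sub_zero, zero_add, ex_dot]
    obtain ⟨b1, b2⟩ := Sing.bound hℓ hl hh' hr (by linarith) hκ0 hu hz (hX z hz) s1 hc hd
    have b3 : |δ ⬝ᵥ u| * opn (r.Ψ (g.ex (cnr f))) / Λ ≤ h / 2 * c := by
      rw [div_le_iff₀ (by linarith)]
      refine b2.trans ?_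
      have : h' * b ^ 2 ≤ h / 2 * Λ := by nlinarith
      nlinarith
    have b4 : opn (r.Ψ (g.ex δ - (δ ⬝ᵥ u) • g.ex (cnr f))) / ρ ≤ h / 2 * c := by
      rw [div_le_iff₀ hρ]
      exact b1.trans_eq (by rw [hκ1]; ring)
    linarith
  · dsimp only
    rw [prB_src, src_dot_ex, sub_self, zero_smul, sub_zero, opn_Psi_zero, zero_div, abs_zero,
      zero_mul, zero_div, add_zero, add_zero]
    exact In.src hr hy i

end Vale.Agent.P144Z.RN
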