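import Vale.Agent.P144Z.RN.Basic

/-!
# Gaussian convolution is an expectation for the norms of the flow
-/

namespace Vale.Agent.P144Z.RN

open Finset Matrix

set_option linter.unusedSectionVars false

/-- The size at scale `ℓ`. -/
noncomputable def szAt (M : ℕ) [NeZero M] (ℓ : ℕ) (hℓ : 1 ≤ ℓ) : Size (Tor M) where
  adj x y := tdist x y ≤ ℓ
  refl x := by rw [tdist_self]; exact Nat.zero_le _
  symm h := by rwa [tdist_comm]
  sz X := 1 + (stein X : ℝ) / ℓ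
  one_le X := le_add_of_nonneg_right (by positivity)
  union_le := by
    rintro X Y ⟨x, hx, y, hy, h⟩
    have h0 : (0 : ℝ) < ℓ := by exact_mod_cast hℓ
    have h1 : (stein (X ∪ Y) : ℝ) ≤ stein X + stein Y + ℓ := by
      exact_mod_cast (stein_union hx hy).trans (Nat.add_le_add_left h _)
    have h2 : (stein (X ∪ Y) : ℝ) / ℓ ≤ (stein X + stein Y + ℓ) / ℓ :=
      div_le_div_of_nonneg_right h1 h0.le
    rw [add_div, add_div, div_self h0.ne'] at h2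
    linarith

/-- The size for which all points are neighbours. -/
def szAll (P : Type) [DecidableEq P] : Size P where
  adj _ _ := True
  refl _ := trivial
  symm _ := trivial
  sz _ := 1
  one_le _ := le_rfl
  union_le _ := by norm_num

variable {g : Geo}

theorem exM_anti {C : Matrix (Tor g.M × Fin 4) (Tor g.M × Fin 4) ℝ} (hC : Cᵀ = -C) :
    (g.exM C)ᵀ = -g.exM C := by
  rw [Geo.exM, fromBlocks_transpose, hC, fromBlocks_neg]; simp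

theorem exM_dot (C : Matrix (Tor g.M × Fin 4) (Tor g.M × Fin 4) ℝ) (a b : g.S → ℝ) :
    a ⬝ᵥ g.exM C *ᵥ b = (a ∘ Sum.inl) ⬝ᵥ C *ᵥ (b ∘ Sum.inl) := by
  simp [Geo.exM, dotProduct, mulVec, Fintype.sum_sum_type]

theorem exM_psd {Q : Matrix (Tor g.M × Fin 4) (Tor g.M × Fin 4) ℝ} (hQ : Q.PosSemidef) :
    (g.exM Q).PosSemidef := by
  refine PosSemidef.of_dotProduct_mulVec_nonneg ?_ fun x => ?_
  · exact IsHermitian.fromBlocks hQ.isHermitian (by simp) isHermitian_zero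
  · rw [star_trivial, exM_dot]
    simpa using hQ.dotProduct_mulVec_nonneg (x ∘ Sum.inl)

theorem flip_single (s : g.S) : g.flip (Pi.single s 1)
    = Sum.elim (fun _ => (-1 : ℝ)) (fun _ => 1) s • Pi.single s 1 := by
  rcases s with s | s
  · rw [← ex_single, flip_ex]; simp
  · rw [flip_src]; simp

theorem evG_mem {C : Matrix (Tor g.M × Fin 4) (Tor g.M × Fin 4) ℝ} (hC : Cᵀ = -C)
    {X : Finset g.P} {F : g.E} (hF : F ∈ g.sub X) : evG (g.exM C) F ∈ g.sub X := by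
  refine mem_sub.2 ⟨?_, ?_⟩
  · rw [val_evG]; exact gauss_loc _ (sub_loc hF)
  · rw [val_evG, ← gauss_map (exM_anti hC) (exM_anti hC) g.flip (sub_loc hF), sub_flip hF]
    intro s _ s' _
    rw [flip_single, flip_single, mulVec_smul, smul_dotProduct, dotProduct_smul,
      single_one_dotProduct, mulVec_single_one]
    cases s <;> cases s' <;> simp [Geo.exM]

/-- The Gram bound for the norms of the flow. -/
theorem pn_evG {C : Matrix (Tor g.M × Fin 4) (Tor g.M × Fin 4) ℝ} (hC : Cᵀ = -C) {ℓ : ℕ}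
    (hℓ : 1 ≤ ℓ) {c h h' β : ℝ} (hG : GramLe (Dm g.A) C ℓ c) (hc : 0 ≤ c) (hh' : 0 < h')
    (hh : h' + 2 * c ≤ h) (hβ : 0 < β) {X : Finset g.P} {F : g.E} (hF : F ∈ g.sub X) :
    g.pn ℓ h' β X (evG (g.exM C) F) ≤ g.pn ℓ h β X F := by
  obtain ⟨Q, hQ, h1, h2⟩ := hG
  unfold Geo.pn
  rw [val_evG]
  refine nrm_gauss (adm hℓ (by linarith) hβ X) (adm hℓ hh' hβ X) (exM_anti hC) (exM_psd hQ)
    (fun δ δ' => by rw [exM_dot, exM_dot, exM_dot]; exact h1 _ _) (fun p hp => ?_) (sub_loc hF)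
  rcases cons_cases hp with ⟨z, hz, δ, c', hs, hc', hd, rfl⟩ | ⟨k, i, hk, rfl⟩
  · refine ⟨h' * c', Or.inl ⟨z, hz, δ, c', hs, hc', hd, rfl⟩, ?_⟩
    have h3 := h2 δ c' fun u => (hd u).trans (mul_le_mul_of_nonneg_left (by
      refine (hsq_mono g.A (Nat.cast_nonneg ℓ) le_rfl (subset_univ _) u).trans_eq ?_
      simp only [hsq, l2sq_univ]) (sq_nonneg _))
    have h4 : √(g.ex δ ⬝ᵥ g.exM Q *ᵥ g.ex δ) ≤ c * c' := by
      rw [exM_dot]
      exact Real.sqrt_le_iff.2 ⟨mul_nonneg hc hc', h3⟩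
    show h' * c' + 2 * √(g.ex δ ⬝ᵥ g.exM Q *ᵥ g.ex δ) ≤ h * c'
    nlinarith
  · refine ⟨√β, Or.inr ⟨k, i, hk, rfl⟩, ?_⟩
    show √β + 2 * √((Pi.single (Sum.inr (k, i)) 1 : g.S → ℝ) ⬝ᵥ g.exM Q *ᵥ
      Pi.single (Sum.inr (k, i)) 1) ≤ √β
    rw [single_one_dotProduct, mulVec_single_one]
    simp [Geo.exM]

theorem evG_one (C : Matrix g.S g.S ℝ) : evG C (1 : g.E) = 1 :=
  Ev.val_injective (by rw [val_evG, map_one, gauss_one])

theorem isExp_evG {C : Matrix (Tor g.M × Fin 4) (Tor g.M × Fin 4) ℝ} (hC : Cᵀ = -C) {ℓ : ℕ}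
    (hℓ : 1 ≤ ℓ) {c h h' β : ℝ} (hG : GramLe (Dm g.A) C ℓ c) (hc : 0 ≤ c) (hh0 : 0 < h)
    (hh' : 0 < h') (hh : h' + 2 * c ≤ h) (hβ : 0 < β) (Z : Size g.P)
    (hZ : ∀ s s' : Tor g.M × Fin 4, ¬ Z.adj s.1 s'.1 → C s s' = 0) :
    IsExp Z (locSys g hℓ hh0 hβ) (locSys g hℓ hh' hβ) 0 (evG (g.exM C)) where
  one := evG_one _
  mem hF := evG_mem hC hF
  le hF := by
    rw [zero_mul, Real.exp_zero, one_mul]
    exact pn_evG hC hℓ hG hc hh' hh hβ hF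
  mul {X Y F G} hF hG hXY := by
    refine Ev.val_injective ?_
    rw [val_evG, map_mul Ev.val, map_mul Ev.val, val_evG, val_evG]
    refine gauss_mul (exM_anti hC) (sub_loc hF) (sub_loc hG) fun s hs s' hs' => ?_
    rcases s with s | s <;> rcases s' with s' | s'
    · exact hZ s s' fun h => hXY ⟨_, hs, _, hs', h⟩
    all_goals rfl

/-- One step of integration. -/
theorem isExp_covP : ∃ C : ℝ, 1 ≤ C ∧ ∀ (g : Geo), IsSign g.A → ∀ (ℓ ℓ' : ℕ) (h8 : 8 ≤ ℓ)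
    (hl : ℓ ≤ ℓ') (h β : ℝ) (hh : 0 < h) (hβ : 0 < β), C * ℓ' / ℓ ≤ h →
    IsExp (szAt g.M ℓ' (by omega)) (locSys g (ℓ := ℓ) (by omega) hh hβ)
      (locSys g (ℓ := ℓ) (by omega) (half_pos hh) hβ) 0 (evG (g.exM (covP (Dm g.A) ℓ ℓ'))) := by
  obtain ⟨C, hC, h1⟩ := gram_covP
  refine ⟨4 * C, by linarith, fun g hA ℓ ℓ' h8 hl h β hh hβ hle => ?_⟩
  refine isExp_evG (covP_anti (isD_Dm hA).anti _ _) _ (h1 _ _ (isD_Dm hA) ℓ ℓ' h8 hl)
    (by positivity) hh _ ?_ hβ _ fun s s' hs => covP_range _ hl (by omega) (not_le.1 hs)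
  have : 4 * C * ℓ' / ℓ = 4 * (C * ℓ' / ℓ) := by ring
  linarith

/-- The last integration. -/
theorem isExp_covL : ∃ C : ℝ, 1 ≤ C ∧ ∀ (g : Geo), IsSign g.A → ∀ (ℓ : ℕ) (h8 : 8 ≤ ℓ) (γ : ℝ),
    ℓ ≤ γ → (∀ v, (Dm g.A *ᵥ v) ⬝ᵥ (Dm g.A *ᵥ v)
      ≤ γ ^ 2 * (((Dm g.A * Dm g.A) *ᵥ v) ⬝ᵥ ((Dm g.A * Dm g.A) *ᵥ v))) →
    ∀ (h β : ℝ) (hh : 0 < h) (hβ : 0 < β), C * γ / ℓ ≤ h →
    IsExp (szAll g.P) (locSys g (ℓ := ℓ) (by omega) hh hβ)
      (locSys g (ℓ := ℓ) (by omega) (half_pos hh) hβ) 0 (evG (g.exM (covL (Dm g.A) ℓ))) := by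
  obtain ⟨C, hC, h1⟩ := gram_covL
  refine ⟨4 * C, by linarith, fun g hA ℓ h8 γ hγ hD h β hh hβ hle => ?_⟩
  have h0 : 0 ≤ γ := (Nat.cast_nonneg ℓ).trans hγ
  refine isExp_evG (covL_anti (isD_Dm hA).anti _) _ (h1 _ _ (isD_Dm hA) ℓ γ h8 hγ hD)
    (by positivity) hh _ ?_ hβ _ fun s s' hs => (hs trivial).elim
  have : 4 * C * γ / ℓ = 4 * (C * γ / ℓ) := by ring
  linarith

end Vale.Agent.P144Z.RN
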